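import Vale.Agent.P292.Main

/-! P292: the same theorem with a more explicit conclusion. -/

open Polynomial Set Matrix

noncomputable section

namespace Vale.Agent.P292

open Vale.Agent.P271 Vale.Agent.P276

variable {K : Type} [Field K] [Algebra ℂ K] {N n m : ℕ} {t : Fin (N + 1) → K}

theorem alt_ff {M : ℕ} {x : Fin (M + 1) → K} (hK : IsFunctionField t) {v : Fin (N + 1) → ℂ}
    {w : Fin (M + 1) → ℂ} (hv : OnX t v) (hw : OnX x w) (h : locRing t v ≤ locRing x w) :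
    IsFunctionField x := by
  refine ⟨fun h0 => hw.1 (funext fun l => ?_), fun a => ?_⟩
  · simpa using hw.2 1 _ (MvPolynomial.isHomogeneous_X ℂ l) (by simp [h0])
  obtain ⟨d, P, Q, hP, hQ, h1, h2⟩ := hK.2 a
  obtain ⟨l, hl⟩ := Function.ne_iff.1 hv.1
  have hl' : v l ≠ 0 := hl
  have hX : (MvPolynomial.X l ^ d : MvPolynomial (Fin (N + 1)) ℂ).IsHomogeneous d :=
    MvPolynomial.isHomogeneous_X_pow l d
  have h3 : MvPolynomial.eval v (MvPolynomial.X l ^ d : MvPolynomial (Fin (N + 1)) ℂ) ≠ 0 := by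
    simpa using pow_ne_zero d hl'
  have h4 := hv.aeval_ne hX h3
  obtain ⟨d₁, P₁, Q₁, hP₁, hQ₁, k1, e1⟩ := loc_rep (h (div_mem_locRing hv hP hX h3))
  obtain ⟨d₂, P₂, Q₂, hP₂, hQ₂, k2, e2⟩ := loc_rep (h (div_mem_locRing hv hQ hX h3))
  refine ⟨d₁ + d₂, P₁ * Q₂, Q₁ * P₂, hP₁.mul hQ₂, hQ₁.mul hP₂, ?_, ?_⟩
  · rw [map_mul, ← e2]
    exact mul_ne_zero (hw.aeval_ne hQ₁ k1) (mul_ne_zero (div_ne_zero h1 h4) (hw.aeval_ne hQ₂ k2))
  · rw [map_mul, map_mul, ← e1, ← e2, ← h2]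
    ring

theorem adjoint_explicit (hX : Fano t (2 * n + 1) m) (hn : 1 ≤ n)
    {θ : Derivation ℂ K K →ₗ[K] K} (hθ : IsContact t n θ) :
    ∃ (G : Type) (_ : LieRing G) (_ : LieAlgebra ℂ G) (_ : LieAlgebra.IsSimple ℂ G) (M : ℕ)
      (b : Module.Basis (Fin (M + 1)) ℂ G) (e : G) (x : Fin (M + 1) → K),
      e ≠ 0 ∧ IsNilpotent (LieAlgebra.ad ℂ G e) ∧ (∀ a : G, ∃ c : ℂ, ⁅e, ⁅e, a⁆⁆ = c • e) ∧
      IsFunctionField x ∧
      (∀ w, OnX x w ↔ ∃ (c : ℂ) (y : G), c ≠ 0 ∧ Relation.ReflTransGen AdStep e y ∧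
        b.equivFun.symm w = c • y) ∧
      (∀ v, OnX t v → ∃ w, OnX x w ∧ locRing t v = locRing x w) ∧
      (∀ w, OnX x w → ∃ v, OnX t v ∧ locRing t v = locRing x w) ∧
      ∀ D, θ D = 0 ↔ ∃ z, killK b x z = 0 ∧ ∀ i, D (x i) = brK b z x i := by
  obtain ⟨S, hS, hL⟩ := exists_cn hX hn hθ
  obtain ⟨W, _, _, _, G₀, hW, hG⟩ := exists_good hS
  obtain ⟨x, r, f, cc, h⟩ := exists_mom hS hW hG
  obtain ⟨G, _, _, b, μ, h1⟩ := exists_nm hS hW h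
  obtain ⟨ι, ρ, he⟩ := exists_em hS h1.gen
  obtain ⟨x₀, hx⟩ := h1.memK hS he
  have := h1.kil
  obtain ⟨e, h2, h3, h4⟩ := h1.mom.orbit
  have h5 : OnX μ (b.equivFun e) := (h4 _).2 ⟨1, e, one_ne_zero, .refl, by simp⟩
  have h6 : IsExt e := by simpa only [LinearEquiv.symm_apply_apply] using h1.mom.isExt h5
  have h7 : ∀ w, OnX x₀ w ↔ OnX μ w := fun w => by rw [funext hx, onX_map he.ne]
  have h8 := h1.iso hS he hx
  have h9 : ∀ w, OnX x₀ w → ∃ v, OnX t v ∧ locRing t v = locRing x₀ w := fun w hw => by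
    obtain ⟨v, hv, e⟩ := (Set.ext_iff.1 h8 (locRing x₀ w)).2 ⟨w, hw, rfl⟩
    exact ⟨v, hv, e.symm⟩
  obtain ⟨v, hv, e1⟩ := h9 _ ((h7 _).2 h5)
  exact ⟨G, inferInstance, inferInstance, h1.simple, r, b, e, x₀, h2, h3, h6,
    alt_ff hX.ff hv ((h7 _).2 h5) e1.le, fun w => (h7 w).trans (h4 w),
    fun v hv => (Set.ext_iff.1 h8 (locRing t v)).1 ⟨v, hv, rfl⟩, h9, h1.dist hS hL he hx⟩

end Vale.Agent.P292
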