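import Vale.Agent.P292.A.Defs
import Vale.Agent.P276.E.Defs
import Vale.Agent.P276R.Defs

/-! P292: definitions (no task). The total space of the dual contact bundle is the cone over the
section ring of `L`, with generators `c i r ^ w i` and Poisson brackets `p i j`. See
`notes/P292.md`. -/

open Polynomial Set Matrix

noncomputable section

namespace Vale.Agent.P292

open Vale.Agent.P271 Vale.Agent.P276

/-- Generators of the section ring with weights and Poisson brackets. -/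
structure Cn (K : Type) (N : ℕ) where
  M : ℕ
  w : Fin M → ℕ
  c : Fin M → K
  e0 : Fin (N + 1) → Fin M
  u : K
  p : Fin M → Fin M → MvPolynomial (Fin M) ℂ

namespace Cn

variable {K : Type} [Field K] [Algebra ℂ K] {N : ℕ} (S : Cn K N)

section Ring

variable {R : Type} [CommRing R] [Algebra ℂ R]

/-- Points of the cone. -/
def On (z : Fin S.M → R) : Prop :=
  ∀ (k : ℕ) (P : MvPolynomial (Fin S.M) ℂ), P.IsWeightedHomogeneous S.w k →
    MvPolynomial.aeval S.c P = 0 → MvPolynomial.aeval z P = 0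

/-- Tangent vectors of the cone. -/
def Tan (z δ : Fin S.M → R) : Prop :=
  ∀ (k : ℕ) (P : MvPolynomial (Fin S.M) ℂ), P.IsWeightedHomogeneous S.w k →
    MvPolynomial.aeval S.c P = 0 → ∑ i, MvPolynomial.aeval z (MvPolynomial.pderiv i P) * δ i = 0

/-- The tangent space. -/
def TanS (z : Fin S.M → R) : Submodule R (Fin S.M → R) where
  carrier := {δ | S.Tan z δ}
  add_mem' := fun h h' k P hP h0 => by
    simp only [Pi.add_apply, mul_add, Finset.sum_add_distrib, h k P hP h0, h' k P hP h0, add_zero]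
  zero_mem' := fun k P _ _ => by simp
  smul_mem' := fun c a h k P hP h0 => by
    simp only [Pi.smul_apply, mul_smul_comm, ← Finset.smul_sum, h k P hP h0, smul_zero]

/-- The Poisson matrix. -/
def pm (z : Fin S.M → R) : Matrix (Fin S.M) (Fin S.M) R :=
  Matrix.of fun i j => MvPolynomial.aeval z (S.p i j)

omit [Algebra ℂ R] in
/-- The torus action. -/
def sc (ρ : R) (z : Fin S.M → R) : Fin S.M → R := fun i => ρ ^ S.w i * z i

omit [Algebra ℂ R] in
/-- The Euler field. -/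
def eu (z : Fin S.M → R) : Fin S.M → R := fun i => (S.w i : R) * z i

end Ring

variable {W : Type} [Field W] [Algebra ℂ W]

open Classical in
/-- The symplectic form. -/
def om (z v v' : Fin S.M → W) : W :=
  if h : ∃ ξ, S.pm z *ᵥ ξ = v' then v ⬝ᵥ h.choose else 0

/-- The properties of the symplectic cone over the contact Fano manifold. -/
structure Ok (t : Fin (N + 1) → K) (n m : ℕ) : Prop where
  fano : Fano t (2 * n + 1) m
  npos : 1 ≤ n
  wpos : ∀ i, 0 < S.w i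
  we0 : ∀ j, S.w (S.e0 j) = m * (n + 1)
  une : S.u ≠ 0
  ce0 : ∀ j, S.c (S.e0 j) = S.u * t j
  hom : ∀ i j, (S.p i j).IsWeightedHomogeneous S.w (S.w i + S.w j - 1)
  alt : ∀ i j, S.p j i = - S.p i j
  jac : ∀ (R : Type) [CommRing R] [Algebra ℂ R] (z : Fin S.M → R), S.On z → ∀ i j k,
    ∑ l, (S.pm z i l * MvPolynomial.aeval z (MvPolynomial.pderiv l (S.p j k)) +
      S.pm z j l * MvPolynomial.aeval z (MvPolynomial.pderiv l (S.p k i)) +
      S.pm z k l * MvPolynomial.aeval z (MvPolynomial.pderiv l (S.p i j))) = 0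
  tanp : ∀ (R : Type) [CommRing R] [Algebra ℂ R] (z : Fin S.M → R), S.On z → ∀ i,
    S.Tan z (S.pm z i)
  inv : ∀ (W : Type) [Field W] [Algebra ℂ W] (z : Fin S.M → W), S.On z → z ≠ 0 →
    ∃ (q : MvPolynomial (Fin S.M) ℂ) (a : Matrix (Fin S.M) (Fin S.M) (MvPolynomial (Fin S.M) ℂ)),
      MvPolynomial.aeval z q ≠ 0 ∧ ∀ (R : Type) [CommRing R] [Algebra ℂ R] (z' δ : Fin S.M → R),
        S.On z' → S.Tan z' δ → S.pm z' *ᵥ (a.map (MvPolynomial.aeval z') *ᵥ δ) =
          MvPolynomial.aeval z' q • δ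
  dim : ∀ (W : Type) [Field W] [Algebra ℂ W] (z : Fin S.M → W), S.On z → z ≠ 0 →
    Module.finrank W (S.TanS z) = 2 * n + 2
  pinj : ∀ (W : Type) [Field W] [Algebra ℂ W] (z δ : Fin S.M → W), S.On z → z ≠ 0 → S.Tan z δ →
    δ ∘ S.e0 = 0 → δ = 0
  int : ∀ (W : Type) [Field W] [Algebra ℂ W] (O : ValuationSubring W), Ov ∅ O →
    ∀ z : Fin S.M → W, S.On z → (∀ j, z (S.e0 j) ∈ O) → ∀ i, z i ∈ O
  lift : ∀ (W : Type) [Field W] [Algebra ℂ W] [IsAlgClosed W] (x : Fin (N + 1) → W), On0 t x →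
    x ≠ 0 → ∃ z : Fin S.M → W, S.On z ∧ z ∘ S.e0 = x
  uniq : ∀ (W : Type) [Field W] [Algebra ℂ W] (z z' : Fin S.M → W), S.On z → S.On z' → z ≠ 0 →
    z ∘ S.e0 = z' ∘ S.e0 → ∃ ζ : W, ζ ^ (m * (n + 1)) = 1 ∧ z' = S.sc ζ z
  free : ∀ (W : Type) [Field W] [Algebra ℂ W] (z : Fin S.M → W) (ζ : W), S.On z → z ≠ 0 →
    S.sc ζ z = z → ζ = 1
  nrm : ∀ (W : Type) [Field W] [Algebra ℂ W] (z : Fin S.M → W), S.On z →
    rk (range z) = 2 * n + 2 → ∀ y ∈ IntermediateField.adjoin ℂ (range z),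
      IsIntegral (Algebra.adjoin ℂ (range z)) y → y ∈ Algebra.adjoin ℂ (range z)

/-- The contact form is the contraction of the symplectic form with the Euler field. -/
def Link (θ : Derivation ℂ K K →ₗ[K] K) : Prop :=
  ∀ D, θ D = 0 ↔ S.om S.c (S.eu S.c) (fun i => D (S.c i)) = 0

/-- Value at infinity of a curve of degree `δ`. -/
def top (δ : ℕ) (G : Fin S.M → W[X]) : Fin S.M → W := fun i => (G i).coeff (δ * S.w i)

/-- The change of parameter `X ↦ 1 / X`. -/
def rev (δ : ℕ) (G : Fin S.M → W[X]) : Fin S.M → W[X] := fun i => reflect (δ * S.w i) (G i)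

/-- Value at a finite parameter. -/
def ev (G : Fin S.M → W[X]) (a : W) : Fin S.M → W := fun i => (G i).eval a

/-- The change of parameter `X ↦ X + a`. -/
def sh (a : W) (G : Fin S.M → W[X]) : Fin S.M → W[X] := fun i => taylor a (G i)

/-- The torus action on curves. -/
def scP (ρ : W) (G : Fin S.M → W[X]) : Fin S.M → W[X] := fun i => C (ρ ^ S.w i) * G i

/-- A derivation applied to the coefficients. -/
def cD (D : Derivation ℂ W W) (G : Fin S.M → W[X]) : Fin S.M → W[X] :=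
  fun i => ∑ k ∈ (G i).support, monomial k (D ((G i).coeff k))

/-- The coordinates of the two end points. -/
def ends (δ : ℕ) (G : Fin S.M → W[X]) : Set W := range (cv G 0) ∪ range (S.top δ G)

/-- A rational curve of `L`-degree `δ`, lifted to the cone. -/
structure LC (δ : ℕ) (G : Fin S.M → W[X]) : Prop where
  on : S.On G
  deg : ∀ i, (G i).natDegree ≤ δ * S.w i
  prim : ∀ a, S.ev G a ≠ 0
  top : S.top δ G ≠ 0

/-- The contact form on the tangent vector at `0`. -/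
def Av (G : Fin S.M → W[X]) : W := S.om (cv G 0) (S.eu (cv G 0)) (cv G 1)

/-- A generic member of a family of lines. -/
def FL (n : ℕ) (G : Fin S.M → W[X]) : Prop := S.LC 1 G ∧ 3 * n + 3 ≤ rk (S.ends 1 G)

/-- A conic joining two independent generic points. -/
def FC (n : ℕ) (G : Fin S.M → W[X]) : Prop :=
  S.LC 2 G ∧ S.Av G ≠ 0 ∧ 4 * n + 4 ≤ rk (S.ends 2 G)

/-- The conic `G` breaks into the lines `R₁`, `R₂`. -/
structure Node {κ : Type} [Field κ] [Algebra ℂ κ] (P : Place ℂ W κ) (G : Fin S.M → W[X]) (u : W)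
    (R₁ R₂ : Fin S.M → κ[X]) : Prop where
  ne : u ≠ 0
  lt : P.O.valuation u < 1
  r1 : P.RedP (dil u G) R₁
  r2 : P.RedP (dil u (S.rev 2 G)) R₂
  l1 : S.LC 1 R₁
  l2 : S.LC 1 R₂
  top : S.top 1 R₁ = S.top 1 R₂

/-- The symplectic form on the tangent vectors of two lines at their common point at infinity. -/
def nom (R₁ R₂ : Fin S.M → W[X]) : W :=
  S.om (S.top 1 R₁) (cv (S.rev 1 R₁) 1) (cv (S.rev 1 R₂) 1)

/-- Two lines with a common point at infinity whose other ends are as independent as possible. -/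
def Pair (n : ℕ) (R₁ R₂ : Fin S.M → W[X]) : Prop :=
  S.LC 1 R₁ ∧ S.LC 1 R₂ ∧ S.top 1 R₁ = S.top 1 R₂ ∧
    4 * n + 1 ≤ rk (pj (cv R₁ 0 ∘ S.e0) ∪ pj (cv R₂ 0 ∘ S.e0))

/-- A point of the cone that is generic over `Y`. -/
def GenO (n : ℕ) (Y : Set W) (x : Fin S.M → W) : Prop :=
  Y.Finite ∧ S.On x ∧ rk (Y ∪ range x) = rk Y + (2 * n + 2)

open Classical in
/-- The derivation over `Y` attached to a tangent vector at a generic point. -/
def dv (Y : Set W) (x δ : Fin S.M → W) : Derivation ℂ W W :=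
  if h : ∃ D : Derivation ℂ W W, (∀ a ∈ cl Y, D a = 0) ∧ ∀ j, D (x j) = δ j then h.choose else 0

/-- The Hamiltonian vector of `f`. -/
def vec (Y : Set W) (x : Fin S.M → W) (f : W) : Fin S.M → W := fun i => S.dv Y x (S.pm x i) f

/-- The Poisson bracket. -/
def pb (Y : Set W) (x : Fin S.M → W) (f g : W) : W := S.dv Y x (S.vec Y x f) g

/-- Iterated brackets with the generators. -/
def hI (Y : Set W) (x : Fin S.M → W) (l : List (Fin S.M)) (f : W) : W :=
  l.foldr (fun i g => S.vec Y x g i) f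

/-- An algebraic function of weight `k` at the generic point `x`, with parameters `Y`. -/
def Wt (Y : Set W) (x : Fin S.M → W) (k : ℕ) (f : W) : Prop :=
  f ∈ cl (Y ∪ range x) ∧ S.dv Y x (S.eu x) f = k * f

/-- The curve `G` is independent of `Y` and passes through `x` at the generic parameter `τ`. -/
def Thru (Y : Set W) (x : Fin S.M → W) (G : Fin S.M → W[X]) (τ : W) : Prop :=
  S.ev G τ = x ∧ rk (Y ∪ insert τ (cf G)) = rk Y + rk (cf G) + 1

/-- `f` is a polynomial of degree at most `e` along `G`. -/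
def PolOn (Y : Set W) {α : Type} (G : α → W[X]) (τ : W) (e : ℕ) (f : W) : Prop :=
  ∃ q : W[X], q.natDegree ≤ e ∧ (∀ i, q.coeff i ∈ cl (Y ∪ cf G)) ∧ f = q.eval τ

/-- Functions of weight `k` that are polynomial along all curves of the family `𝓕`. -/
def Pol (𝓕 : (Fin S.M → W[X]) → Prop) (δ : ℕ) (Y : Set W) (x : Fin S.M → W) (k : ℕ) (f : W) :
    Prop :=
  S.Wt Y x k f ∧ ∀ G τ, 𝓕 G → S.Thru Y x G τ → PolOn Y G τ (δ * k) f

/-- The family of conjugates of `G₀`. -/
def Cj {α : Type} (G₀ G : α → W[X]) : Prop :=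
  ∃ θ : W ≃ₐ[ℂ] W, G = fun i => (G₀ i).map (θ : W →+* W)

/-- The conic `G₀` is full, and it breaks into generic lines if there is a pair of lines. -/
def Good (n : ℕ) (G₀ : Fin S.M → W[X]) : Prop :=
  S.FC n G₀ ∧ ((∀ (V : Type) [Field V] [Algebra ℂ V] [IsAlgClosed V] (R₁ R₂ : Fin S.M → V[X]),
    ¬ S.Pair n R₁ R₂) ∨ ∃ (κ : Type) (_ : Field κ) (_ : Algebra ℂ κ) (_ : IsAlgClosed κ)
      (P : Place ℂ W κ) (u : W) (R₁ R₂ : Fin S.M → κ[X]), S.Node P G₀ u R₁ R₂ ∧ S.FL n R₁ ∧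
        S.FL n R₂ ∧ S.GenO n ∅ (S.top 1 R₁))

end Cn

/-- The bracket given by structure constants. -/
def lc {ι R : Type} [Fintype ι] [CommRing R] [Algebra ℂ R] (cc : ι → ι → ι → ℂ) (x y : ι → R) :
    ι → R := fun k => ∑ i, ∑ j, x i * y j * algebraMap ℂ R (cc i j k)

/-- The data delivered by block P: a finite dimensional Lie algebra of Hamiltonians. -/
structure Cn.Mom {K : Type} [Field K] [Algebra ℂ K] {N : ℕ} (S : Cn K N) (n : ℕ) {W : Type}
    [Field W] [Algebra ℂ W] (x : Fin S.M → W) {r : ℕ} (f : Fin (r + 1) → W)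
    (cc : Fin (r + 1) → Fin (r + 1) → Fin (r + 1) → ℂ) : Prop where
  gen : S.GenO n ∅ x
  li : LinearIndependent ℂ f
  wt : ∀ i, S.Wt ∅ x 1 (f i)
  br : ∀ i j, S.pb ∅ x (f i) (f j) = ∑ k, algebraMap ℂ W (cc i j k) * f k
  gal : ∀ θ : W ≃ₐ[ℂ] W, Fx (range x) θ → ∀ i, θ (f i) ∈ Submodule.span ℂ (range f)
  span : ∀ δ, S.Tan x δ → δ ∈ Submodule.span W (range fun i => S.vec ∅ x (f i))
  ext : ∃ (a : Fin (r + 1) → W) (η : W ≃ₐ[ℂ] W) (Y : Set W), a ≠ 0 ∧
    (∀ w, lc cc a (lc cc a w) = (2 * ((fun i => η (f i)) ⬝ᵥ w)) • a) ∧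
    S.GenO n Y x ∧ range a ⊆ cl Y ∧ (∀ j, η (x j) ∈ cl Y) ∧
    ∀ j, (S.pb Y x (a ⬝ᵥ f))^[2 * S.w j] (x j) =
      ((2 * S.w j).factorial : W) * (a ⬝ᵥ f) ^ S.w j * η (x j)
  bdd : ∀ O, Ov ∅ O → ∀ ρ : W, PV O (S.sc ρ x) → ∀ i, ρ * f i ∈ O

end Vale.Agent.P292
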