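import Vale.Agent.P292.K.Main
import Vale.Agent.P292.X.Main
import Vale.Agent.P292.P.Main
import Vale.Agent.P292.Z.Main

/-! P292: assembly. -/

open Polynomial Set Matrix

noncomputable section

namespace Vale.Agent.P292

open Vale.Agent.P271 Vale.Agent.P276

variable {K : Type} [Field K] [Algebra ℂ K] {N n m : ℕ} {t : Fin (N + 1) → K} {S : Cn K N}
  {W : Type} [Field W] [Algebra ℂ W]

theorem adjoint_of_contact (hX : Fano t (2 * n + 1) m) (hn : 1 ≤ n)
    {θ : Derivation ℂ K K →ₗ[K] K} (hθ : IsContact t n θ) : IsAdjoint t θ := by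
  obtain ⟨S, hS, hL⟩ := exists_cn hX hn hθ
  obtain ⟨W, _, _, _, G₀, hW, hG⟩ := exists_good hS
  obtain ⟨x, r, f, cc, h⟩ := exists_mom hS hW hG
  exact adj_of_mom hS hL hW h

end Vale.Agent.P292
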