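import Vale.Agent.P276.Stmt

/-! Statement definitions for P292 (contact Fano manifolds). The variety `X ⊆ ℙ^N` is given by its
function field `K` and the homogeneous coordinates `t` of its generic point, as in P271, P276. -/

namespace Vale.Agent.P292

open Vale.Agent.P271

variable {K : Type} [Field K] [Algebra ℂ K] {N : ℕ}

/-- The rational vector field `D` is regular at the point with local ring `O`. -/
def IsReg (O : Subalgebra ℂ K) (D : Derivation ℂ K K) : Prop := ∀ a ∈ O, D a ∈ O

/-- The rational one-form `θ` defines a contact structure on `X`: at each point some multiple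
`g θ` maps the regular vector fields onto the local ring, and its Levi pairing on the kernel has
unit determinant on `2 n` regular vector fields. -/
def IsContact (t : Fin (N + 1) → K) (n : ℕ) (θ : Derivation ℂ K K →ₗ[K] K) : Prop :=
  ∀ v, OnX t v → ∃ g : K, (∀ D, IsReg (locRing t v) D → g * θ D ∈ locRing t v) ∧
    (∃ D, IsReg (locRing t v) D ∧ g * θ D = 1) ∧
    ∃ w : Fin (2 * n) → Derivation ℂ K K, (∀ i, IsReg (locRing t v) (w i) ∧ θ (w i) = 0) ∧
      ∃ a ∈ locRing t v, a * (Matrix.of fun i j => g * θ ⁅w i, w j⁆).det = 1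

variable {G : Type} [LieRing G] [LieAlgebra ℂ G] {M : ℕ}

/-- `y' = exp (ad a) y` for an ad-nilpotent `a`; these maps generate the adjoint group. -/
def AdStep (y y' : G) : Prop :=
  ∃ (a : G) (k : ℕ), LieAlgebra.ad ℂ G a ^ k = 0 ∧
    y' = ∑ i ∈ Finset.range k, ((i.factorial : ℂ)⁻¹) • (LieAlgebra.ad ℂ G a ^ i) y

/-- The bracket of two vectors with coordinates in `K`, in the basis `b`. -/
noncomputable def brK (b : Module.Basis (Fin (M + 1)) ℂ G) (z x : Fin (M + 1) → K)
    (i : Fin (M + 1)) : K :=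
  ∑ j, ∑ k, b.repr ⁅b j, b k⁆ i • (z j * x k)

/-- The Killing form of two vectors with coordinates in `K`, in the basis `b`. -/
noncomputable def killK (b : Module.Basis (Fin (M + 1)) ℂ G) (x z : Fin (M + 1) → K) : K :=
  ∑ j, ∑ k, killingForm ℂ G (b j) (b k) • (x j * z k)

/-- `(X, ker θ)` is isomorphic to an adjoint variety with its canonical contact distribution. -/
def IsAdjoint (t : Fin (N + 1) → K) (θ : Derivation ℂ K K →ₗ[K] K) : Prop :=
  ∃ (G : Type) (_ : LieRing G) (_ : LieAlgebra ℂ G) (_ : LieAlgebra.IsSimple ℂ G) (M : ℕ)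
    (b : Module.Basis (Fin (M + 1)) ℂ G) (e : G) (x : Fin (M + 1) → K),
    e ≠ 0 ∧ IsNilpotent (LieAlgebra.ad ℂ G e) ∧
    (∀ w, OnX x w ↔ ∃ (c : ℂ) (y : G), c ≠ 0 ∧ Relation.ReflTransGen AdStep e y ∧
      b.equivFun.symm w = c • y) ∧
    {O | ∃ v, OnX t v ∧ O = locRing t v} = {O | ∃ w, OnX x w ∧ O = locRing x w} ∧
    ∀ D, θ D = 0 ↔ ∃ z, killK b x z = 0 ∧ ∀ i, D (x i) = brK b z x i

end Vale.Agent.P292
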